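import Mathlib

/-!
Bounded parameter-dependent vector fields on a compact time interval: existence of solutions and
continuous dependence of the end point on the parameter; extension of a path by constants.
-/

set_option autoImplicit false

namespace Crest.Agent.Lib.Riccati

open Set Filter Topology Metric
open scoped NNReal

theorem exists_flow {E P : Type*} [NormedAddCommGroup E] [NormedSpace ℝ E] [ProperSpace E]
    [TopologicalSpace P] {V : P → ℝ → E → E} {y0 : P → E} {x0 x1 L : ℝ} (hx : x0 ≤ x1)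
    (hL : ∀ p t y, ‖V p t y‖ ≤ L)
    (hlip : ∀ p (ρ : ℝ), ∃ K : ℝ≥0, ∀ t ∈ Icc x0 x1, LipschitzOnWith K (V p t) (closedBall 0 ρ))
    (hc : Continuous fun z : P × ℝ × E => V z.1 z.2.1 z.2.2) (hy : Continuous y0) :
    ∃ Y : P → ℝ → E, (∀ p, Y p x0 = y0 p ∧ ∀ x ∈ Icc x0 x1,
      HasDerivWithinAt (Y p) (V p x (Y p x)) (Icc x0 x1) x) ∧ Continuous fun p => Y p x1 := by
  have hex : ∀ p, ∃ y : ℝ → E, y x0 = y0 p ∧ ∀ x ∈ Icc x0 x1,
      HasDerivWithinAt y (V p x (y x)) (Icc x0 x1) x := by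
    intro p
    have hL0 : 0 ≤ L := (norm_nonneg _).trans (hL p 0 0)
    set a : ℝ≥0 := ⟨L * (x1 - x0), mul_nonneg hL0 (sub_nonneg.2 hx)⟩
    obtain ⟨K, hK⟩ := hlip p (‖y0 p‖ + a)
    have hsub : closedBall (y0 p) a ⊆ closedBall 0 (‖y0 p‖ + a) :=
      closedBall_subset_closedBall' (by simp [add_comm])
    have hPL : IsPicardLindelof (V p) (tmin := x0) (tmax := x1) ⟨x0, left_mem_Icc.2 hx⟩ (y0 p) a 0
        ⟨L, hL0⟩ K :=
      { lipschitzOnWith := fun t ht => (hK t ht).mono hsub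
        continuousOn := fun y _ =>
          (hc.comp (continuous_const.prodMk (continuous_id.prodMk continuous_const))).continuousOn
        norm_le := fun t _ y _ => hL p t y
        mul_max_le := by
          simp only [sub_self, NNReal.coe_zero, sub_zero, a]
          rw [max_eq_left (sub_nonneg.2 hx)]
          exact le_rfl }
    exact hPL.exists_eq_forall_mem_Icc_hasDerivWithinAt₀
  choose Y hY0 hY using hex
  refine ⟨Y, fun p => ⟨hY0 p, hY p⟩, continuous_iff_continuousAt.2 fun p₀ => ?_⟩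
  have hL0 : 0 ≤ L := (norm_nonneg _).trans (hL p₀ 0 0)
  have hcont : ∀ p, ContinuousOn (Y p) (Icc x0 x1) := fun p x hx => (hY p x hx).continuousWithinAt
  have hder : ∀ p, ∀ t ∈ Ico x0 x1, HasDerivWithinAt (Y p) (V p t (Y p t)) (Ici t) t :=
    fun p t ht => (hY p t (Ico_subset_Icc_self ht)).mono_of_mem_nhdsWithin
      (Icc_mem_nhdsGE_of_mem ht)
  have hbd : ∀ p, ∀ t ∈ Icc x0 x1, ‖Y p t‖ ≤ ‖y0 p‖ + L * (x1 - x0) := by
    intro p t ht
    have h1 := norm_image_sub_le_of_norm_deriv_right_le_segment (hcont p) (hder p)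
      (fun t _ => hL p t _) t ht
    have h2 := norm_sub_norm_le (Y p t) (Y p x0)
    rw [hY0] at h1 h2
    have : L * (t - x0) ≤ L * (x1 - x0) := mul_le_mul_of_nonneg_left (by linarith [ht.2]) hL0
    linarith
  set ρ := ‖y0 p₀‖ + 1 + L * (x1 - x0)
  obtain ⟨K, hK⟩ := hlip p₀ ρ
  have hlim : Tendsto (fun ε : ℝ => gronwallBound ε K (ε + 0) (x1 - x0)) (𝓝 0) (𝓝 0) := by
    have : Continuous fun ε : ℝ => gronwallBound ε K (ε + 0) (x1 - x0) := by
      by_cases hK0 : (K : ℝ) = 0
      · simp only [hK0, gronwallBound_K0]; fun_prop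
      · simp only [gronwallBound_of_K_ne_0 hK0]; fun_prop
    have h := this.tendsto 0
    simpa [gronwallBound_ε0_δ0] using h
  rw [ContinuousAt, Metric.tendsto_nhds]
  intro ε hε
  obtain ⟨δ, hδ, hδε⟩ : ∃ δ > 0, gronwallBound δ K (δ + 0) (x1 - x0) < ε := by
    have h1 := (hlim.eventually (gt_mem_nhds hε)).filter_mono (nhdsWithin_le_nhds (s := Ioi 0))
    obtain ⟨δ, h2, h3⟩ := (h1.and self_mem_nhdsWithin).exists
    exact ⟨δ, h3, h2⟩
  have hC : IsCompact (Icc x0 x1 ×ˢ closedBall (0 : E) ρ) :=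
    isCompact_Icc.prod (isCompact_closedBall _ _)
  have e1 : ∀ᶠ p in 𝓝 p₀, ∀ z ∈ Icc x0 x1 ×ˢ closedBall (0 : E) ρ,
      dist (V p z.1 z.2) (V p₀ z.1 z.2) < δ := by
    refine hC.eventually_forall_of_forall_eventually fun z _ => ?_
    have h1 : Continuous fun w : P × ℝ × E => dist (V w.1 w.2.1 w.2.2) (V p₀ w.2.1 w.2.2) :=
      hc.dist (hc.comp (continuous_const.prodMk continuous_snd))
    exact (h1.tendsto (p₀, z)).eventually (gt_mem_nhds (by simpa using hδ))
  have e2 : ∀ᶠ p in 𝓝 p₀, dist (y0 p) (y0 p₀) < min δ 1 :=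
    Metric.tendsto_nhds.1 hy.continuousAt _ (by positivity)
  filter_upwards [e1, e2] with p h1 h2
  have h3 : ‖y0 p‖ ≤ ‖y0 p₀‖ + 1 := by
    have := norm_sub_norm_le (y0 p) (y0 p₀)
    rw [dist_eq_norm] at h2
    linarith [h2.trans_le (min_le_right _ _)]
  have hm : ∀ t ∈ Ico x0 x1, Y p t ∈ closedBall (0 : E) ρ := fun t ht => by
    have := hbd p t (Ico_subset_Icc_self ht)
    simp only [mem_closedBall, dist_zero_right, ρ]; linarith
  have hm₀ : ∀ t ∈ Ico x0 x1, Y p₀ t ∈ closedBall (0 : E) ρ := fun t ht => by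
    have := hbd p₀ t (Ico_subset_Icc_self ht)
    simp only [mem_closedBall, dist_zero_right, ρ]; linarith
  have := dist_le_of_approx_trajectories_ODE_of_mem (v := V p₀) (s := fun _ => closedBall 0 ρ)
    (K := K) (εf := δ) (εg := 0) (δ := δ) (fun t ht => hK t (Ico_subset_Icc_self ht)) (hcont p)
    (hder p) (fun t ht => (h1 (t, Y p t) ⟨Ico_subset_Icc_self ht, hm t ht⟩).le) hm (hcont p₀)
    (hder p₀) (fun t _ => by simp) hm₀
    (by rw [hY0, hY0]; exact (h2.trans_le (min_le_left _ _)).le) x1 (right_mem_Icc.2 hx)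
  exact this.trans_lt hδε

/-- Extending a path by constants when the derivative vanishes at both ends. -/
theorem hasDerivAt_clamp {E : Type*} [NormedAddCommGroup E] [NormedSpace ℝ E] {x0 x1 : ℝ}
    (hx : x0 ≤ x1) {f f' : ℝ → E} (hf : ∀ x ∈ Icc x0 x1, HasDerivWithinAt f (f' x) (Icc x0 x1) x)
    (h0 : f' x0 = 0) (h1 : f' x1 = 0) (x : ℝ) :
    HasDerivAt (fun y => f (max x0 (min x1 y))) (f' (max x0 (min x1 x))) x := by
  set g : ℝ → E := fun y => f (max x0 (min x1 y))
  have hL : ∀ y ≤ x0, max x0 (min x1 y) = x0 := fun y hy =>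
    max_eq_left ((min_le_right _ _).trans hy)
  have hR : ∀ y, x1 ≤ y → max x0 (min x1 y) = x1 := fun y hy => by
    rw [min_eq_left hy, max_eq_right hx]
  have hM : ∀ y ∈ Icc x0 x1, max x0 (min x1 y) = y := fun y hy => by
    rw [min_eq_right hy.2, max_eq_right hy.1]
  have a1 : HasDerivWithinAt g (f' (max x0 (min x1 x))) (Iic x0) x := by
    by_cases h : x ≤ x0
    · rw [hL x h, h0]
      exact (hasDerivWithinAt_const x _ (f x0)).congr_of_mem (fun y hy => by
        simp only [g, hL y hy]) h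
    · exact HasFDerivWithinAt.of_notMem_closure (by simpa using h)
  have a2 : HasDerivWithinAt g (f' (max x0 (min x1 x))) (Icc x0 x1) x := by
    by_cases h : x ∈ Icc x0 x1
    · rw [hM x h]
      exact (hf x h).congr_of_mem (fun y hy => by simp only [g, hM y hy]) h
    · exact HasFDerivWithinAt.of_notMem_closure (by simpa using h)
  have a3 : HasDerivWithinAt g (f' (max x0 (min x1 x))) (Ici x1) x := by
    by_cases h : x1 ≤ x
    · rw [hR x h, h1]
      exact (hasDerivWithinAt_const x _ (f x1)).congr_of_mem (fun y hy => by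
        simp only [g, hR y hy]) h
    · exact HasFDerivWithinAt.of_notMem_closure (by simpa using h)
  have := (a1.union a2).union a3
  rwa [Iic_union_Icc_eq_Iic hx, Iic_union_Ici, hasDerivWithinAt_univ] at this

end Crest.Agent.Lib.Riccati
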